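import Vale.Agent.P275FL.Ka
import Vale.Agent.P275KU.Tn

/-!
# P275, flat bundles: the model computes the cohomology with compact supports of the total space
-/

set_option linter.unusedSectionVars false

open scoped Manifold ContDiff Topology TensorProduct
open Set
open Vale.Agent.P272.K Vale.Agent.P272.K.Prod Vale.Agent.P281Z.Hg Vale.Agent.P275MC
  Vale.Agent.P275KU
open Vale.Agent.P275AR (dc)

noncomputable section

namespace Vale.Agent.P275FL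

theorem qi_bij {T T' : Type*} [AddCommGroup T] [Module ℂ T] [AddCommGroup T'] [Module ℂ T']
    {d : Module.End ℂ T} {G : ℤ → Submodule ℂ T} {d' : Module.End ℂ T'} {G' : ℤ → Submodule ℂ T'}
    {f : T →ₗ[ℂ] T'} (h1 : ∀ k, ∀ a ∈ G k, f a ∈ G' k) (h2 : ∀ k, ∀ a ∈ G k, d' (f a) = f (d a))
    (h3 : ∀ k, ∀ b ∈ G' k, ∃ a ∈ G k, f a = b) (h4 : ∀ k, ∀ a ∈ G k, f a = 0 → a = 0)
    (hd : ∀ k, ∀ a ∈ G k, d a ∈ G (k + 1)) : Qi d G d' G' f where
  map := h1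
  comm := h2
  inj k a ha _ y hy e := by
    obtain ⟨x, hx, rfl⟩ := h3 _ y hy
    have h5 := hd _ _ hx
    rw [sub_add_cancel] at h5
    exact ⟨x, hx, sub_eq_zero.1 (h4 k _ (sub_mem h5 ha) (by
      rw [map_sub, ← h2 _ _ hx, e, sub_self]))⟩
  surj k b hb h0 := by
    obtain ⟨x, hx, rfl⟩ := h3 _ b hb
    exact ⟨x, hx, h4 _ _ (hd _ _ hx) (by rw [← h2 _ _ hx, h0]), 0, zero_mem _, by
      rw [map_zero, add_zero]⟩

section cut

variable {b : ℕ} {B : Type} [TopologicalSpace B] [ChartedSpace (Cm b) B] [T2Space B]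
  [IsManifold 𝓘(ℂ, Cm b) ω B]

theorem mu_one_on {ρ : B → ℝ} (hρ : SmoothFn (n := b) ρ) {K : Set B} (h : ∀ y ∈ K, ρ y = 1)
    {a : SF b B} (ha : a ∈ Sp b K) : mu hρ a = a := G2H.ext' fun e x he => by
  rw [mu_vl _ _ he]
  by_cases hx : x ∈ K
  · rw [h x hx, Complex.ofReal_one, one_smul]
  · rw [ha x hx e he, smul_zero]

/-- one cut-off function for finitely many forms -/
theorem cut_span {W W' : Type*} [AddCommGroup W] [Module ℂ W] [AddCommGroup W'] [Module ℂ W']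
    {O : Set B} (hO : IsOpen O) {s : Set W}
    (L : ∀ ρ : B → ℝ, SmoothFn (n := b) ρ → W →ₗ[ℂ] W') (f : W →ₗ[ℂ] W')
    (h : ∀ w ∈ s, ∃ a ∈ Ac b O, ∀ ρ hρ, HasCompactSupport ρ → tsupport ρ ⊆ O → mu hρ a = a →
      L ρ hρ w = f w) {u : W} (hu : u ∈ Submodule.span ℂ s) :
    ∃ ρ hρ, HasCompactSupport ρ ∧ tsupport ρ ⊆ O ∧ L ρ hρ u = f u := by
  have k : ∃ K, IsCompact K ∧ K ⊆ O ∧ ∀ ρ hρ, HasCompactSupport ρ → tsupport ρ ⊆ O →
      (∀ y ∈ K, ρ y = 1) → L ρ hρ u = f u := by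
    induction hu using Submodule.span_induction with
    | mem w hw =>
      obtain ⟨a, ⟨K, k1, k2, k3⟩, k4⟩ := h w hw
      exact ⟨K, k1, k2, fun ρ hρ h1 h2 h3 => k4 ρ hρ h1 h2 (mu_one_on hρ h3 k3)⟩
    | zero => exact ⟨∅, isCompact_empty, empty_subset _, fun _ _ _ _ _ => by rw [map_zero, map_zero]⟩
    | add u v _ _ h1 h2 =>
      obtain ⟨K, k1, k2, k3⟩ := h1
      obtain ⟨K', l1, l2, l3⟩ := h2
      exact ⟨K ∪ K', k1.union l1, union_subset k2 l2, fun ρ hρ h1 h2 h3 => by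
        rw [map_add, map_add, k3 ρ hρ h1 h2 fun y hy => h3 y (Or.inl hy),
          l3 ρ hρ h1 h2 fun y hy => h3 y (Or.inr hy)]⟩
    | smul c u _ h1 =>
      obtain ⟨K, k1, k2, k3⟩ := h1
      exact ⟨K, k1, k2, fun ρ hρ h1 h2 h3 => by rw [map_smul, map_smul, k3 ρ hρ h1 h2 h3]⟩
  obtain ⟨K, k1, k2, k3⟩ := k
  obtain ⟨ρ, h1, h2, h3, -, -, h4⟩ := ex_cut (d := b) hO k1 k2
  exact ⟨ρ, h1, h2, h3, k3 ρ h1 h2 h3 fun y hy => (h4 y hy).self_of_nhds⟩

variable (b B) in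
/-- the homogeneous components of the forms with compact support -/
def pjc (k : ℤ) : Module.End ℂ (Ac b (univ : Set B)) := (pj b B k).restrict fun _ => pj_Ac k

end cut

attribute [local instance] prodCS isManifold_prod

namespace Fl

variable {N b m : ℕ} {T B M : Type} [TopologicalSpace T] [ChartedSpace (Cm N) T] [T2Space T]
  [IsManifold 𝓘(ℂ, Cm N) ω T] [TopologicalSpace B] [ChartedSpace (Cm b) B] [T2Space B]
  [IsManifold 𝓘(ℂ, Cm b) ω B] [TopologicalSpace M] [ChartedSpace (Cm m) M] [T2Space M]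
  [IsManifold 𝓘(ℂ, Cm m) ω M] (F : Fl N b m T B M) {i : F.ι} {j k l : ℤ} {U : Set B} {a : SF b B}
  {x : Ac m (univ : Set M)}

/-- the elements of degree `k` over `U` -/
def Cq (k : ℤ) (U : Set B) : Submodule ℂ (Q b F.sy) :=
  Submodule.span ℂ {u | ∃ i j a x, a ∈ Am b j (F.V i ∩ interior U) ∧ x.1 ∈ Dg m M (k - j) ∧
    u = F.sy.gn i a x}

theorem gn_Cq (ha : a ∈ Am b j (F.V i ∩ interior U)) (hx : x.1 ∈ Dg m M (k - j)) :
    F.sy.gn i a x ∈ F.Cq k U := Submodule.subset_span ⟨i, j, a, x, ha, hx, rfl⟩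

theorem Cq_le {W : Type*} [AddCommGroup W] [Module ℂ W] {f : Q b F.sy →ₗ[ℂ] W} {R : Submodule ℂ W}
    (h : ∀ i j a x, a ∈ Am b j (F.V i ∩ interior U) → x.1 ∈ Dg m M (k - j) →
      f (F.sy.gn i a x) ∈ R) {u : Q b F.sy} (hu : u ∈ F.Cq k U) : f u ∈ R :=
  Submodule.mem_comap.1 (Submodule.span_le.2 (by
    rintro _ ⟨i, j, a, x, h1, h2, rfl⟩
    exact h i j a x h1 h2) hu)

theorem cos_Cq : Cos (F.sy.Dq b (dc m univ)) F.Cq where
  dd := Sy.Dq_Dq F.eqv_dc fun x => Subtype.ext (dd_dd x.1)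
  dC k U u := F.Cq_le fun i j a x h1 h2 => by
    rw [Sy.Dq_gn F.eqv_dc (Ac_mono inter_subset_left h1.1)]
    refine add_mem (F.gn_Cq (dd_Am h1) ?_) (F.gn_Cq (pr_Am h1) ?_)
    · rwa [add_sub_add_right_eq_sub]
    · rw [add_sub_right_comm]
      exact dd_Dg h2
  mono k U V e u := F.Cq_le (f := LinearMap.id) fun i j a x h1 h2 =>
    F.gn_Cq (Am_mono _ (inter_subset_inter_right _ (interior_mono e)) h1) h2
  un k S hS u := F.Cq_le (f := LinearMap.id) fun i j a x h1 h2 => by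
    have h3 : a ∈ Am b j (⋃ W : S, F.V i ∩ W) := Am_mono _ (fun y hy => by
      obtain ⟨W, hW, h⟩ := interior_subset hy.2
      exact mem_iUnion.2 ⟨⟨W, hW⟩, mem_inter hy.1 h⟩) h1
    rw [Am_iUnion fun W : S => (F.opn i).inter (hS _ W.2)] at h3
    have h4 : ⨆ W : S, Am b j (F.V i ∩ W) ≤
        Submodule.comap ((F.sy.gn i).flip x) (⨆ V ∈ S, F.Cq k V) := iSup_le fun W a ha =>
      Submodule.mem_comap.2 (Submodule.mem_iSup_of_mem W.1 (Submodule.mem_iSup_of_mem W.2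
        (F.gn_Cq (by rwa [(hS _ W.2).interior_eq]) h2)))
    exact h4 h3
  int k U V u hu := by
    obtain ⟨ρ, hρ, h1, h2, e⟩ := cut_span (b := b) (isOpen_interior (s := U))
      (fun ρ hρ => F.sy.map F.sy (mu hρ) fun _ => LinearMap.id) LinearMap.id (by
        rintro _ ⟨i, j, a, x, h1, -, rfl⟩
        exact ⟨a, Ac_mono inter_subset_right h1.1, fun ρ hρ _ _ e => by
          rw [Sy.map_gn (loc_mu hρ) Sy.Eqv.id (Ac_mono inter_subset_left h1.1), e]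
          rfl⟩) hu.1
    rw [← show _ = u from e]
    refine F.Cq_le (fun i j a x k1 k2 => ?_) hu.2
    rw [Sy.map_gn (loc_mu hρ) Sy.Eqv.id (Ac_mono inter_subset_left k1.1)]
    refine F.gn_Cq ⟨Ac_mono ?_ (Ac_inter (mu_mem_Ac hρ h1 h2 a) (mu_Ac hρ k1.1)), mu_Dg hρ k1.2⟩ k2
    rw [interior_inter]
    exact fun y hy => ⟨hy.2.1, hy.1, hy.2.2⟩
  bd := ⟨(b + b : ℕ) + (m + m : ℕ) + 1, fun k U hk => eq_bot_iff.2 fun u =>
    F.Cq_le (f := LinearMap.id) fun i j a x h1 h2 => by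
      by_cases h : (b + b : ℕ) < j
      · have h3 := h1.2
        rw [Dg_big h] at h3
        simp [(Submodule.mem_bot ℂ).1 h3]
      · rw [Dg_big (by omega)] at h2
        simp [show x = 0 from Subtype.ext ((Submodule.mem_bot ℂ).1 h2)]⟩

theorem cos_T : Cos (dd N T) fun k (U : Set B) => Am N k (F.p ⁻¹' U) :=
  cos_Am0 (F.p ⁻¹' ·) (fun _ h => h.preimage F.smp.cont) (fun _ _ => preimage_mono)
    (fun _ _ ⟨W, hW, h⟩ => mem_iUnion.2 ⟨⟨W, hW⟩, h⟩) fun _ _ _ h => h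

theorem mor_ka : Mor (F.sy.Dq b (dc m univ)) F.Cq (dd N T) (fun k U => Am N k (F.p ⁻¹' U)) F.ka0 :=
  ⟨fun k U u => F.Cq_le fun i j a x h1 h2 => by
    rw [F.ka0_gn (Ac_mono inter_subset_left h1.1)]
    have h3 := F.kp_Am inter_subset_left h1 (⟨x.2, h2⟩ : x.1 ∈ Am m (k - j) univ)
    rw [add_sub_cancel] at h3
    exact Am_mono _ (preimage_mono (inter_subset_right.trans interior_subset)) h3, F.ka0_D⟩

theorem qi_ex (hU : U ⊆ F.V i) : Qi (dd (b + m) (B × M)) (Am (b + m) · (U ×ˢ (univ : Set M)))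
    (dd N T) (Am N · (F.p ⁻¹' U)) (F.ex i) :=
  Qi.of_inv (F.rs i)
    (fun k w hw => ⟨F.ex_Ac' hU hw.1, mem_Dg_iff.2 (by rw [← F.ex_pj' hU hw.1, pj_eq hw.2])⟩)
    (fun _ _ hw => (F.ex_dd' hU hw.1).symm)
    (fun k u hu => ⟨⟨F.rs_Ac' hU hu.1, mem_Dg_iff.2 (by
      rw [← F.rs_ex' hU (pj_Ac k (F.rs_Ac' hU hu.1)), F.ex_pj' hU (F.rs_Ac' hU hu.1),
        F.ex_rs' hU hu.1, pj_eq hu.2])⟩, F.ex_rs' hU hu.1⟩)
    (fun _ w hw h0 => by rw [← F.rs_ex' hU hw.1, h0, map_zero]) fun _ _ => dd_Am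

theorem Gt_le {W : Type*} [AddCommGroup W] [Module ℂ W]
    {f : SF b B ⊗[ℂ] Ac m (univ : Set M) →ₗ[ℂ] W} {R : Submodule ℂ W}
    (h : ∀ j a x, a ∈ Am b j U → x.1 ∈ Dg m M (k - j) → f (a ⊗ₜ x) ∈ R) {z}
    (hz : z ∈ Gt b U univ k) : f z ∈ R :=
  Submodule.mem_comap.1 (Submodule.span_le.2 (by
    rintro _ ⟨j, a, x, h1, h2, rfl⟩
    exact h j a x h1 h2) hz)

theorem Dt_Gt (k : ℤ) (z : SF b B ⊗[ℂ] Ac m (univ : Set M)) (hz : z ∈ Gt b U univ k) :
    Dt b B univ z ∈ Gt b U univ (k + 1) :=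
  Gt_le (fun j a x h1 h2 => by
    rw [Dt_tmul]
    refine add_mem (Submodule.subset_span ⟨_, _, _, dd_Am h1, ?_, rfl⟩)
      (Submodule.subset_span ⟨_, _, _, pr_Am h1, ?_, rfl⟩)
    · rwa [add_sub_add_right_eq_sub]
    · rw [add_sub_right_comm]
      exact dd_Dg h2) hz

theorem qi_em (h0 : IsOpen U) (hU : U ⊆ F.V i) :
    Qi (Dt b B univ) (Gt b U univ) (F.sy.Dq b (dc m univ)) (F.Cq · U) (F.sy.em i) := by
  refine qi_bij (fun k z => Gt_le fun j a x h1 h2 => F.gn_Cq (Am_mono _ ?_ h1) h2)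
    (fun k z hz => sub_eq_zero.1 ((Submodule.mem_bot ℂ).1 (Gt_le
      (f := F.sy.Dq b (dc m univ) ∘ₗ F.sy.em i - F.sy.em i ∘ₗ Dt b B univ)
      (fun j a x h1 _ => ?_) hz)))
    (fun k u hu => F.Cq_le (f := LinearMap.id) (R := (Gt b U univ k).map (F.sy.em i))
      (fun i' j a x h1 h2 => ?_) hu) (fun k z hz e => ?_) Dt_Gt
  · rw [h0.interior_eq]
    exact subset_inter hU subset_rfl
  · rw [LinearMap.sub_apply, LinearMap.comp_apply, LinearMap.comp_apply, Dt_tmul, map_add,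
      Sy.em_tmul, Sy.em_tmul, Sy.em_tmul, Sy.Dq_gn F.eqv_dc (Ac_mono hU h1.1), sub_self]
    exact zero_mem _
  · rw [h0.interior_eq] at h1
    exact ⟨a ⊗ₜ F.sy.τ i i' x, Submodule.subset_span ⟨j, a, _, Am_mono _ inter_subset_right h1,
      pb_Dg _ h2, rfl⟩, (F.sy.gn_tr (Ac_mono (fun y hy => mem_inter (hU hy.2) hy.1) h1.1) x).symm⟩
  · obtain ⟨ρ, hρ, -, -, e'⟩ := cut_span (b := b) (F.opn i)
      (fun ρ hρ => F.sy.rt i (mu hρ) ∘ₗ F.sy.em i) LinearMap.id (by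
        rintro _ ⟨j, a, x, h1, -, rfl⟩
        refine ⟨a, Ac_mono hU h1.1, fun ρ hρ k1 k2 e => ?_⟩
        rw [LinearMap.comp_apply, Sy.em_tmul, Sy.rt_gn (Sy.in_mu hρ k1 k2) (Ac_mono hU h1.1), e]
        rcases zero_or h1.1 with rfl | ⟨y, hy⟩
        · simp
        · rw [F.sy.self i y (hU hy)]
          rfl) hz
    rw [LinearMap.comp_apply, e, map_zero] at e'
    exact e'.symm

/-- the graded form -/
theorem qi_ka (hU : IsOpen U) :
    Qi (F.sy.Dq b (dc m univ)) (F.Cq · U) (dd N T) (Am N · (F.p ⁻¹' U)) F.ka0 := by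
  refine F.mor_ka.qi (B := fun W => IsOpen W ∧ ∃ i, W ⊆ F.V i) F.cos_Cq F.cos_T
    (fun W hW y hy => ?_) ?_ hU
  · obtain ⟨i, hi⟩ := F.cov y
    exact ⟨W ∩ F.V i, ⟨hW.inter (F.opn i), i, inter_subset_right⟩, hW.inter (F.opn i), ⟨hy, hi⟩,
      inter_subset_left⟩
  · rintro W ⟨h0, i, hW⟩
    refine Qi.of_comp (((F.qi_ex hW).comp (qi_ten h0 isOpen_univ)).congr (fun k z hz => ?_) Dt_Gt)
      (F.qi_em h0 hW) (fun k => F.mor_ka.map k W) fun _ u _ => F.ka0_D u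
    refine sub_eq_zero.1 ((Submodule.mem_bot ℂ).1 (Gt_le
      (f := F.ex i ∘ₗ crT b B univ - F.ka0 ∘ₗ F.sy.em i) (fun j a x h1 _ => ?_) hz))
    rw [LinearMap.sub_apply, LinearMap.comp_apply, LinearMap.comp_apply, Sy.em_tmul,
      F.ka0_gn (Ac_mono hW h1.1)]
    exact (Submodule.mem_bot ℂ).2 (sub_self _)

theorem eqv_pj (k : ℤ) : F.sy.Eqv F.sy fun _ => pjc m M k :=
  fun i j _ _ _ x => Subtype.ext (pb_pj (F.smt i j) k x.1)

/-- the component of total degree `k` -/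
def Pq (k : ℤ) : Module.End ℂ (Q b F.sy) :=
  ∑ j ∈ Finset.range (b + b + 1), F.sy.map F.sy (pj b B j) fun _ => pjc m M (k - j)

theorem Pq_gn (ha : a ∈ Ac b (F.V i)) (h1 : a ∈ Dg b B j) (h2 : x.1 ∈ Dg m M l) (k : ℤ) :
    F.Pq k (F.sy.gn i a x) = if j + l = k then F.sy.gn i a x else 0 := by
  simp only [Pq, LinearMap.sum_apply, Sy.map_gn (loc_pj _) (F.eqv_pj _) ha]
  have e : ∀ q : ℕ, F.sy.gn i (pj b B q a) (pjc m M (k - q) x) =
      F.sy.gn i (pj b B q a) (pjc m M (k - j) x) := fun q => by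
    by_cases h : (q : ℤ) = j
    · rw [h]
    · simp only [pj_ne h1 h, map_zero, LinearMap.zero_apply]
  simp only [e]
  rw [← LinearMap.sum_apply, ← map_sum, pj_sum]
  split_ifs with h
  · exact congrArg _ (Subtype.ext (pj_eq (by rwa [← h, add_sub_cancel_left])))
  · rw [show pjc m M (k - j) x = 0 from Subtype.ext (pj_ne h2 (by omega)), map_zero]

theorem ext_dg {W : Type*} [AddCommGroup W] [Module ℂ W] {f g : Q b F.sy →ₗ[ℂ] W}
    (h : ∀ i (j l : ℕ) a x, j < b + b + 1 → l < m + m + 1 → a ∈ Ac b (F.V i) → a ∈ Dg b B j →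
      x.1 ∈ Dg m M l → f (F.sy.gn i a x) = g (F.sy.gn i a x)) (u : Q b F.sy) : f u = g u :=
  F.sy.ext (fun i a ha x => by
    have e : x = ∑ l ∈ Finset.range (m + m + 1), pjc m M (l : ℕ) x := Subtype.ext (by
      rw [Submodule.coe_sum]
      exact (pj_sum x.1).symm)
    rw [← pj_sum a, e]
    simp only [map_sum, LinearMap.sum_apply]
    exact Finset.sum_congr rfl fun l hl => Finset.sum_congr rfl fun j hj =>
      h i j l _ _ (Finset.mem_range.1 hj) (Finset.mem_range.1 hl) (pj_Ac _ ha) (pj_mem _ a)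
        (pj_mem _ x.1)) u

theorem Pq_mem (k : ℤ) (u : Q b F.sy) : F.Pq k u ∈ F.Cq k univ := by
  refine F.sy.ind (p := fun u => F.Pq k u ∈ F.Cq k univ) u (by rw [map_zero]; exact zero_mem _)
    (fun u v h1 h2 => by rw [map_add]; exact add_mem h1 h2) fun i a ha x => ?_
  simp only [Pq, LinearMap.sum_apply, Sy.map_gn (loc_pj _) (F.eqv_pj _) ha]
  exact Submodule.sum_mem _ fun j _ => F.gn_Cq
    (pj_Am _ (by rwa [interior_univ, inter_univ])) (pj_mem _ x.1)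

theorem Pq_D (k : ℤ) (u : Q b F.sy) :
    F.Pq (k + 1) (F.sy.Dq b (dc m univ) u) = F.sy.Dq b (dc m univ) (F.Pq k u) :=
  F.ext_dg (f := F.Pq (k + 1) ∘ₗ F.sy.Dq b (dc m univ)) (g := F.sy.Dq b (dc m univ) ∘ₗ F.Pq k)
    (fun i j l a x _ _ ha h1 h2 => by
      rw [LinearMap.comp_apply, LinearMap.comp_apply, F.Pq_gn ha h1 h2, Sy.Dq_gn F.eqv_dc ha,
        map_add, F.Pq_gn (loc_dd ha) (dd_Dg h1) h2,
        F.Pq_gn (x := dc m univ x) (loc_pr ha) (pr_Am (⟨ha, h1⟩ : a ∈ Am b j _)).2 (dd_Dg h2)]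
      by_cases h : (j : ℤ) + l = k
      · rw [if_pos h, if_pos (by omega), if_pos (by omega), Sy.Dq_gn F.eqv_dc ha]
      · rw [if_neg h, if_neg (by omega), if_neg (by omega), map_zero, add_zero]) u

theorem Pq_ka (k : ℤ) (u : Q b F.sy) : F.ka0 (F.Pq k u) = pj N T k (F.ka0 u) :=
  F.ext_dg (f := F.ka0 ∘ₗ F.Pq k) (g := pj N T k ∘ₗ F.ka0) (fun i j l a x _ _ ha h1 h2 => by
    rw [LinearMap.comp_apply, LinearMap.comp_apply, F.Pq_gn ha h1 h2, F.ka0_gn ha]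
    split_ifs with h
    · rw [F.ka0_gn ha, ← h, pj_eq (F.kp_Dg ha h1 h2)]
    · rw [map_zero, pj_ne (F.kp_Dg ha h1 h2) (Ne.symm h)]) u

theorem Pq_sum (u : Q b F.sy) :
    ∑ k ∈ Finset.range (b + b + 1 + (m + m + 1)), F.Pq (k : ℕ) u = u :=
  (LinearMap.sum_apply _ _ u).symm.trans (F.ext_dg (g := LinearMap.id)
    (fun i j l a x hj hl ha h1 h2 => by
      simp only [LinearMap.sum_apply, F.Pq_gn ha h1 h2, ← Nat.cast_add, Nat.cast_inj,
        Finset.sum_ite_eq, Finset.mem_range, add_lt_add hj hl, if_true, LinearMap.id_apply]) u)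

/-- **the model computes the cohomology with compact supports of the total space** -/
theorem ku : P275SM.Qs (F.sy.Dq b (dc m univ)) (dc N univ) F.ka := by
  have q := F.qi_ka isOpen_univ
  refine ⟨F.ka_D, fun z y hz e => ?_, fun z hz => ?_⟩
  · choose w _ hw using fun k : ℤ => q.inj k _ (F.Pq_mem k z) (by rw [← F.Pq_D, hz, map_zero]) _
      (pj_Am (k - 1) y.2) (by
        rw [F.Pq_ka, ← pj_dd']
        exact congrArg (fun v : Ac N univ => pj N T k v) e)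
    exact ⟨∑ k ∈ Finset.range (b + b + 1 + (m + m + 1)), w (k : ℕ), by
      simp only [map_sum, hw, F.Pq_sum]⟩
  · choose w _ h1 y h2 h3 using fun k : ℤ => q.surj k _ (pj_Am k z.2) (by
      rw [← pj_dd, show dd N T z = 0 from congrArg Subtype.val hz, map_zero])
    refine ⟨∑ k ∈ Finset.range (N + N + 1), w (k : ℕ),
      -∑ k ∈ Finset.range (N + N + 1), ⟨y (k : ℕ), (h2 _).1⟩, by
        simp only [map_sum, h1, Finset.sum_const_zero], Subtype.ext ?_⟩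
    rw [Submodule.coe_sub, ka_val, P275AR.dc_val, ← pj_sum z.1]
    simp only [h3, map_sum, Submodule.coe_neg, Submodule.coe_sum, map_neg, Finset.sum_add_distrib]
    abel

end Fl

end Vale.Agent.P275FL
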